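-- RD-BASE 9566b241de2ec7c4b4eead5fc8e2a907b59191d7
import Vale.Agent.P028.MathlibUsed
import Vale.Agent.P028.RD.H383.TAd
import Vale.Agent.P028.RD.H383.TS
import Vale.Agent.P028.RD.R19.GainAl
import Vale.Agent.P028.RD.H530.PairGain
attribute [-instance] ProperSMul.toContinuousSMul IsTopologicalTorsor.toContinuousSMul IdemSemiring.toCanonicallyOrderedAdd IdemSemiring.toMulLeftMono IdemSemiring.toMulRightMono AddQuantale.instAddLeftMono AddQuantale.instAddRightMono Quantale.instMulLeftMono Quantale.instMulRightMono FiniteDimensional.rclike_to_real IsScalarTower.complexToReal FiniteDimensional.complexToReal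

/-!
# Class TS: symmetry and the weight of a rigid unstructured pair, with its gains
-/

namespace Vale.P028.SK

open Finset CF RN

variable {g : Cfg}

/-- the deficits with respect to the centres of the partner -/
theorem od_swap (hV : g.V ⊆ Icc 1 (N g)) {x q r : ℕ} (hx : zs g ≤ x) (hq : q ∈ g.V)
    (hr : r ∈ g.V) (hc : Clean g x q r) (a : ℕ) :
    od x (N g) (kc g r) a = od x (N g) (kc g q) a :=
  od_congr a fun p hp => kc_congr (clean_cross hV hx hq hr hc).1 hp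

theorem UStr_swap {H s γ : ℝ} {x N' : ℕ} {k : ℕ → ℕ} {q r : ℕ} :
    UStr H s γ x N' k r q ↔ UStr H s γ x N' k q r := and_comm

theorem USmall_swap {H : ℝ} {x N' : ℕ} {k : ℕ → ℕ} {q r : ℕ} :
    USmall H x N' k r q ↔ USmall H x N' k q r := and_comm

theorem Str_swap (hV : g.V ⊆ Icc 1 (N g)) {j q r : ℕ} (hz : zs g ≤ z g j) (hq : q ∈ g.V)
    (hr : r ∈ g.V) (hc : Clean g (z g j) q r) : Str g j r q ↔ Str g j q r := by
  unfold Str
  rw [Dl_swap]
  unfold UStr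
  rw [od_swap hV hz hq hr hc, od_swap hV hz hq hr hc]
  exact and_comm

theorem Sml_swap (hV : g.V ⊆ Icc 1 (N g)) {j q r : ℕ} (hz : zs g ≤ z g j) (hq : q ∈ g.V)
    (hr : r ∈ g.V) (hc : Clean g (z g j) q r) : Sml g j r q ↔ Sml g j q r := by
  unfold Sml
  rw [Dl_swap]
  unfold USmall
  rw [od_swap hV hz hq hr hc, od_swap hV hz hq hr hc]
  exact and_comm

/-- the class is symmetric -/
theorem TSj.swap (hJ : JsOK g.K g.Js) (hX : g.Js ≤ g.X) (hV : g.V ⊆ Icc 1 (N g)) {j q r : ℕ}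
    {n : ℤ} (hq : q ∈ g.V) (hr : r ∈ g.V) (h : TSj g j q r n) : TSj g j r q (-n) := by
  have hz : zs g ≤ z g j := zs_le_z hJ hX j
  obtain ⟨h1, h2, h3, h4, h5⟩ := h
  refine ⟨?_, h2.swap hr, h3.swap, fun h => h4 ((Str_swap hV hz hq hr h2).1 h),
    (Sml_swap hV hz hq hr h2).2 h5⟩
  unfold Lv at h1 ⊢
  rw [Dl_swap]
  exact h1

/-- the gain of the pair is symmetric -/
theorem lc_swap {δ : ℕ → ℕ → ℝ} (q r : ℕ) (n : ℤ) (p : ℕ) :
    lc g δ r q (-n) p = lc g δ q r n p := by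
  classical
  unfold lc
  have e : ((p : ℤ) ∣ -n - (c g r p * (cofac q r : ℤ) - c g q p * (cofac r q : ℤ))) ↔
      ((p : ℤ) ∣ n - (c g q p * (cofac r q : ℤ) - c g r p * (cofac q r : ℤ))) := by
    rw [← dvd_neg]
    have : -(-n - (c g r p * (cofac q r : ℤ) - c g q p * (cofac r q : ℤ))) =
        n - (c g q p * (cofac r q : ℤ) - c g r p * (cofac q r : ℤ)) := by ring
    rw [this]
  by_cases h : p ∈ Pm g q ∧ p ∈ Pm g r ∧
      (p : ℤ) ∣ n - (c g q p * (cofac r q : ℤ) - c g r p * (cofac q r : ℤ))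
  · rw [if_pos h, if_pos ⟨h.2.1, h.1, e.2 h.2.2⟩, mul_comm (1 - δ r p)]
  · rw [if_neg h, if_neg fun h' => h ⟨h'.2.1, h'.1, e.1 h'.2.2⟩]

theorem TP_swapS {δ : ℕ → ℕ → ℝ} (x q r : ℕ) (n : ℤ) :
    TP g δ x r q (-n) = TP g δ x q r n := by
  classical
  unfold TP
  rw [inter_comm]
  refine prod_congr ?_ fun p _ => lc_swap q r n p
  ext p
  simp only [mem_filter]
  tauto

/-- **the weight of a clean pair**, one-sided, with the gains `TP` -/
theorem term_gain (hρ : Real.exp 1 ≤ g.K.P.ρ0 ^ (-g.K.P.c0)) (hJ : JsOK g.K g.Js)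
    (hX : g.Js ≤ g.X) (hV : g.V ⊆ Icc 1 (N g)) {δ : ℕ → ℕ → ℝ}
    (hδ : Om δ) {i q r : ℕ} (hq : q ∈ V1 g) (hr : r ∈ V1 g)
    {n : ℤ} (hn : n ∈ Sh g q r) (hc : Clean g (z g i) q r)
    (hNA : ∀ p : ℕ, z g i < p → p ≤ N g → ¬ Al g (sg g p) q r n) (hD : Dl g q r ≤ z g i) :
    f g q * f g r / Dl g q r * Kd g δ q r n ≤ Real.exp 354 * 65536 * (f g q * Wt g i r *
        ((rcof (z g i) (N g) (kc g q) q r : ℕ) : ℝ) ^ (-(9 / 10) : ℝ) *
          TP g δ (z g i) q r n) := by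
  obtain ⟨hq0, hqW⟩ := mem_filter.1 hq
  obtain ⟨hr0, hrW⟩ := mem_filter.1 hr
  have hqV : q ∈ g.V := (mem_filter.1 hq0).1
  have hrV : r ∈ g.V := (mem_filter.1 hr0).1
  have hJ4 := hJ.1
  have hX1 : 1 ≤ g.X := by linarith
  have hq1 := mem_Icc.1 (hV hqV)
  have hr1 := mem_Icc.1 (hV hrV)
  have hz : zs g ≤ z g i := zs_le_z hJ hX i
  have h1 := gain_kernel hρ hJ hX hV hδ hqV hrV hz hc hn hNA hD
  have hM : od (z g i) (N g) (kc g q) q = M g i q := rfl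
  rw [hM, ← M_eq_od hV hz hqV hrV hc] at h1
  obtain ⟨e1, -, -, hu, -⟩ := clean_cofac hV hz hqV hrV hc
  have hMr := M_eq_od hV hz hqV hrV hc
  have hW : wdv (xc (PO (z g i) (N g)) (kc g q)) (M g i r) = Wt g i r :=
    Wt_cell (clean_cross hV hz hqV hrV hc).1
  set m' := M g i r with hm'
  set u := rcof (z g i) (N g) (kc g q) q r with hu'
  have hm'0 : 0 < m' := M_pos g i r
  have hm'r : (0 : ℝ) < m' := by exact_mod_cast hm'0
  have hur : (0 : ℝ) < u := by exact_mod_cast hu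
  have hD0 : 0 < Dl g q r := Dl_pos g hq1.1 hr1.1
  have hψ := ψ_pos g r
  have hDr := (Dl_eq hX1 hq1.1 hr1.1).2
  have hco : (cofac q r : ℝ) = m' * u := by
    rw [e1]
    push_cast
    ring
  have hK0 := Kd_nonneg g hδ q r n
  have hf0 := f_nonneg g q
  have hG1 := one_le_Gn (M g i q)
  have hG2 := one_le_Gn m'
  have g1 : NT.Gn (M g i q) ≤ Real.exp (1 / 2) := Gn_od_le hqW hz
  have g2 : NT.Gn m' ≤ Real.exp (1 / 2) := Gn_od_le hrW hz
  have h2 : f g q * f g r / Dl g q r * Kd g δ q r n ≤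
      f g q / (m' * u) * ((r.totient : ℝ) / r * Kd g δ q r n) := by
    have h3 : f g r ≤ ψ g r * (r.totient / r) := f_le g r
    calc f g q * f g r / Dl g q r * Kd g δ q r n
        ≤ f g q * (ψ g r * (r.totient / r)) / Dl g q r * Kd g δ q r n := by gcongr
      _ = f g q / (m' * u) * ((r.totient : ℝ) / r * Kd g δ q r n) := by
          rw [← hDr, hco]
          field_simp
  have h4 : NT.Gn (cofac q r) ≤ Real.exp (1 / 2) * (65536 * (u : ℝ) ^ (1 / 10 : ℝ)) := by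
    rw [e1]
    refine (Gn_mul_le hm'0 hu).trans ?_
    exact mul_le_mul g2 (Gn_le_rpow_tenth hu) (by linarith [one_le_Gn u]) (Real.exp_pos _).le
  have h5 : ro (z g i) r ≤ m' * Wt g i r := by
    rw [← hW, hMr]
    exact ro_le_wdv
  have hro := ro_nonneg (z g i) r
  have hw := Wt_nonneg (g := g) i r
  have hG3 := one_le_Gn (cofac q r)
  have hTP := TP_nonneg (g := g) hδ (z g i) q r n
  have hLK := LK_nonneg (g := g) hδ (z g i) q r n
  have hLK1 := LK_le_one (g := g) hδ (z g i) q r n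
  have h6 : (u : ℝ) ^ (1 / 10 : ℝ) / u = (u : ℝ) ^ (-(9 / 10) : ℝ) := by
    rw [div_eq_mul_inv, ← Real.rpow_neg_one, ← Real.rpow_add hur]
    norm_num
  have h7 := gain_alg hf0 hm'r hur (Real.exp_pos 352).le (Real.exp_pos (1 / 2)).le
    (zero_le_one.trans hG1) (zero_le_one.trans hG2) (zero_le_one.trans hG3) hro hw hTP hLK
    (Real.rpow_nonneg hur.le (1 / 10)) (by norm_num) h2 h1 g1 g2 h4 h5
  rw [h6] at h7
  refine h7.trans ?_
  have hP : 0 ≤ f g q * Wt g i r * (u : ℝ) ^ (-(9 / 10) : ℝ) :=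
    mul_nonneg (mul_nonneg hf0 hw) (Real.rpow_nonneg hur.le _)
  calc Real.exp 352 * (Real.exp (1 / 2) * Real.exp (1 / 2)) * Real.exp (1 / 2) * 65536 *
        (f g q * Wt g i r * (u : ℝ) ^ (-(9 / 10) : ℝ) *
          (TP g δ (z g i) q r n * LK g δ (z g i) q r n))
      ≤ Real.exp 354 * 65536 * (f g q * Wt g i r * (u : ℝ) ^ (-(9 / 10) : ℝ) *
          (TP g δ (z g i) q r n * LK g δ (z g i) q r n)) :=
        mul_le_mul_of_nonneg_right (mul_le_mul_of_nonneg_right exp_aux (by norm_num))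
          (mul_nonneg hP (mul_nonneg hTP hLK))
    _ ≤ _ := by
        refine mul_le_mul_of_nonneg_left (mul_le_mul_of_nonneg_left ?_ hP) (by positivity)
        exact mul_le_of_le_one_right hTP hLK1

/-- the constant of the kernel -/
noncomputable def CK : ℝ := Real.exp 354 * 65536

theorem CK_pos : 0 < CK := by unfold CK; positivity

/-- **the weight of a rigid unstructured pair**, the two one-sided bounds -/
theorem term_TS_gain (hρ : Real.exp 1 ≤ g.K.P.ρ0 ^ (-g.K.P.c0)) (hJ : JsOK g.K g.Js)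
    (hX : g.Js ≤ g.X) (hV : g.V ⊆ Icc 1 (N g)) {δ : ℕ → ℕ → ℝ}
    (hδ : Om δ) {j q r : ℕ} (hq : q ∈ V1 g) (hr : r ∈ V1 g)
    {n : ℤ} (hn : n ∈ Sh g q r) (hT : TSj g j q r n) (hD : Dl g q r ≤ 1) :
    f g q * f g r / Dl g q r * Kd g δ q r n ≤ CK * (f g q * Wt g j r *
        ((rcof (z g j) (N g) (kc g q) q r : ℕ) : ℝ) ^ (-(9 / 10) : ℝ) *
          TP g δ (z g j) q r n) ∧
    f g q * f g r / Dl g q r * Kd g δ q r n ≤ CK * (f g r * Wt g j q *
        ((rcof (z g j) (N g) (kc g q) r q : ℕ) : ℝ) ^ (-(9 / 10) : ℝ) *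
          TP g δ (z g j) q r n) := by
  have hqV : q ∈ g.V := (mem_filter.1 (mem_filter.1 hq).1).1
  have hrV : r ∈ g.V := (mem_filter.1 (mem_filter.1 hr).1).1
  have hz : zs g ≤ z g j := zs_le_z hJ hX j
  have hz1 : (1 : ℝ) ≤ z g j := by exact_mod_cast one_le_z g j
  have hTs := hT.swap hJ hX hV hqV hrV
  have h1 := term_gain hρ hJ hX hV hδ hq hr hn hT.2.1 (NAl_primes hJ hX hT.2.2.1)
    (hD.trans hz1)
  have h2 := term_gain hρ hJ hX hV hδ hr hq (Sh_neg hn) hTs.2.1 (NAl_primes hJ hX hTs.2.2.1)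
    (by rw [Dl_swap]; exact hD.trans hz1)
  rw [Kd_swap, Dl_swap, mul_comm (f g r) (f g q), TP_swapS,
    rcof_swap hV hz hqV hrV hT.2.1 r q] at h2
  exact ⟨h1, h2⟩

/-- **the weight of a rigid unstructured pair**: the geometric mean with a free parameter -/
theorem term_TS_mean (hρ : Real.exp 1 ≤ g.K.P.ρ0 ^ (-g.K.P.c0)) (hJ : JsOK g.K g.Js)
    (hX : g.Js ≤ g.X) (hV : g.V ⊆ Icc 1 (N g)) {δ : ℕ → ℕ → ℝ}
    (hδ : Om δ) {j q r : ℕ} (hq : q ∈ V1 g) (hr : r ∈ V1 g)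
    {n : ℤ} (hn : n ∈ Sh g q r) (hT : TSj g j q r n) (hD : Dl g q r ≤ 1) {t : ℝ} (ht : 0 < t) :
    f g q * f g r / Dl g q r * Kd g δ q r n ≤ CK * ((f g q * Wt g j r * t +
        f g r * Wt g j q * t⁻¹) * ((((rcof (z g j) (N g) (kc g q) q r : ℕ) : ℝ) *
        ((rcof (z g j) (N g) (kc g q) r q : ℕ) : ℝ)) ^ (-(9 / 20) : ℝ) *
          TP g δ (z g j) q r n)) := by
  have hqV : q ∈ g.V := (mem_filter.1 (mem_filter.1 hq).1).1
  have hrV : r ∈ g.V := (mem_filter.1 (mem_filter.1 hr).1).1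
  have hz : zs g ≤ z g j := zs_le_z hJ hX j
  obtain ⟨h1, h2⟩ := term_TS_gain hρ hJ hX hV hδ hq hr hn hT hD
  obtain ⟨-, -, -, hu, hv⟩ := clean_cofac hV hz hqV hrV hT.2.1
  set a := rcof (z g j) (N g) (kc g q) q r with ha
  set b := rcof (z g j) (N g) (kc g q) r q with hb
  have ha0 : (0 : ℝ) < a := by exact_mod_cast hu
  have hb0 : (0 : ℝ) < b := by exact_mod_cast hv
  set A := f g q * Wt g j r with hA
  set B := f g r * Wt g j q with hB
  have hA0 : 0 ≤ A := mul_nonneg (f_nonneg g q) (Wt_nonneg _ _)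
  have hB0 : 0 ≤ B := mul_nonneg (f_nonneg g r) (Wt_nonneg _ _)
  have hC0 := CK_pos
  set P := TP g δ (z g j) q r n with hP
  have hP0 : 0 ≤ P := TP_nonneg hδ _ _ _ _
  set T := f g q * f g r / Dl g q r * Kd g δ q r n with hTdef
  have hT0 : 0 ≤ T := mul_nonneg (ff_nonneg g q r) (Kd_nonneg g hδ q r n)
  set y : ℝ := ((a : ℝ) * b) ^ (-(9 / 20) : ℝ) with hy
  have hy0 : 0 ≤ y := by positivity
  have hy2 : (a : ℝ) ^ (-(9 / 10) : ℝ) * (b : ℝ) ^ (-(9 / 10) : ℝ) = y ^ 2 := by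
    rw [hy, ← Real.mul_rpow ha0.le hb0.le, ← Real.rpow_natCast, ← Real.rpow_mul (by positivity)]
    norm_num
  have ht1 : t * t⁻¹ = 1 := mul_inv_cancel₀ ht.ne'
  have hti : 0 < t⁻¹ := inv_pos.2 ht
  have h3 : T ^ 2 ≤ (CK * ((A * t + B * t⁻¹) * (y * P))) ^ 2 := by
    have h4 : T * T ≤ (CK * (A * (a : ℝ) ^ (-(9 / 10) : ℝ) * P)) *
        (CK * (B * (b : ℝ) ^ (-(9 / 10) : ℝ) * P)) :=
      mul_le_mul h1 h2 hT0 (by positivity)
    have h5 : (CK * (A * (a : ℝ) ^ (-(9 / 10) : ℝ) * P)) *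
        (CK * (B * (b : ℝ) ^ (-(9 / 10) : ℝ) * P)) =
        CK ^ 2 * ((A * t) * (B * t⁻¹)) * (y * P) ^ 2 := by
      calc _ = CK ^ 2 * (A * B) * ((a : ℝ) ^ (-(9 / 10) : ℝ) * (b : ℝ) ^ (-(9 / 10) : ℝ)) * P ^ 2 := by
            ring
        _ = CK ^ 2 * (A * B) * y ^ 2 * P ^ 2 := by rw [hy2]
        _ = CK ^ 2 * (A * B * (t * t⁻¹)) * (y * P) ^ 2 := by rw [ht1]; ring
        _ = _ := by ring
    rw [h5] at h4
    have hAt : 0 ≤ A * t := by positivity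
    have hBt : 0 ≤ B * t⁻¹ := by positivity
    have h6 : (A * t) * (B * t⁻¹) ≤ (A * t + B * t⁻¹) ^ 2 := by nlinarith [mul_nonneg hAt hBt]
    calc T ^ 2 = T * T := by ring
      _ ≤ CK ^ 2 * ((A * t) * (B * t⁻¹)) * (y * P) ^ 2 := h4
      _ ≤ CK ^ 2 * (A * t + B * t⁻¹) ^ 2 * (y * P) ^ 2 := by gcongr
      _ = _ := by ring
  exact le_of_sq_le_sq h3 (by positivity)

end Vale.P028.SK
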