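-- RD-BASE a86696e1fb51743269c690a641059fa4076502d1
import Vale.Agent.P028.MathlibUsed
import Vale.Agent.P028.RD.R103.TSa
import Vale.Agent.P028.RD.R103.TSDefs
attribute [-instance] ProperSMul.toContinuousSMul IsTopologicalTorsor.toContinuousSMul IdemSemiring.toCanonicallyOrderedAdd IdemSemiring.toMulLeftMono IdemSemiring.toMulRightMono AddQuantale.instAddLeftMono AddQuantale.instAddRightMono Quantale.instMulLeftMono Quantale.instMulRightMono FiniteDimensional.rclike_to_real IsScalarTower.complexToReal FiniteDimensional.complexToReal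

/-!
# Class TS: the assembly
-/

namespace Vale.P028.SK

open Finset CF RN

variable {g : Cfg}

theorem TP_le_one {δ : ℕ → ℕ → ℝ} (hδ : Om δ) (x q r : ℕ) (n : ℤ) : TP g δ x q r n ≤ 1 := by
  classical
  unfold TP
  refine prod_le_one (fun p hp => ?_) fun p hp => ?_
  · exact (lc_bounds hδ q r n (Nat.prime_of_mem_primeFactors
      (mem_inter.1 (mem_filter.1 hp).1).1)).1
  · have hpp := Nat.prime_of_mem_primeFactors (mem_inter.1 (mem_filter.1 hp).1).1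
    exact (lc_bounds hδ q r n hpp).2.1.trans (one_sub_dq_pos hδ q hpp).2.2

theorem DSys.c_le {S : Finset ℕ} {δ : ℕ → ℕ → ℝ} {c κ A : ℝ} {mu : ℕ → ℕ → ℝ}
    {Cp : ℕ → Finset ℕ} {Pay : ℕ → ℕ → Prop} (h : DSys g S δ c κ A mu Cp Pay) : c ≤ 1 := by
  have h1 := h.c_small
  have h2 := h.c_pos
  have h3 : (1 : ℝ) ≤ Real.exp 24 := Real.one_le_exp (by norm_num)
  nlinarith

theorem DSys.cmu {S : Finset ℕ} {δ : ℕ → ℕ → ℝ} {c κ A : ℝ} {mu : ℕ → ℕ → ℝ}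
    {Cp : ℕ → Finset ℕ} {Pay : ℕ → ℕ → Prop} (h : DSys g S δ c κ A mu Cp Pay) (q : ℕ) :
    ∀ k, 0 ≤ c * mu q k ∧ c * mu q k ≤ 1 := by
  intro k
  have h1 := h.mu_nonneg q k
  have h2 := h.mu_le q k
  exact ⟨mul_nonneg h.c_pos.le h1, mul_le_one₀ h.c_le h1 (by linarith)⟩

/-- the gain is nonnegative -/
theorem Gm_nonneg {S : Finset ℕ} {δ : ℕ → ℕ → ℝ} {c κ A : ℝ} {mu : ℕ → ℕ → ℝ}
    {Cp : ℕ → Finset ℕ} {Pay : ℕ → ℕ → Prop} (h : DSys g S δ c κ A mu Cp Pay) (Rr : ℕ → ℕ → Prop) (j q : ℕ) :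
    0 ≤ Gm g S Rr c κ mu Cp Pay j q := by
  classical
  have hV : 0 ≤ RK.Vt κ (Pay q) (Cp q) (RK.nx (Cp q) (N g) (ps g j)) :=
    (RK.Vt_bounds h.κ_pos.le h.κ_le _).1
  have hU : ∀ a b, 0 ≤ RK.UU (dvn g q) (mu q) c a b := fun a b => (RK.UU_bounds (h.cmu q) a b).1
  unfold Gm
  refine add_nonneg (add_nonneg (mul_nonneg (hU _ _) hV) (sum_nonneg fun i _ => ?_)) ?_
  · exact mul_nonneg (Real.rpow_nonneg (Nat.cast_nonneg _) _) (mul_nonneg (hU _ _) hV)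
  · split_ifs
    · exact hV
    · exact le_rfl

/-- partners at the level `j` -/
def Pt (g : Cfg) (j q r : ℕ) : Prop := ∃ n ∈ Sh g q r, TSj g j q r n

theorem Pt.swap (hJ : JsOK g.K g.Js) (hX : g.Js ≤ g.X) (hV : g.V ⊆ Icc 1 (N g)) {j q r : ℕ}
    (hq : q ∈ g.V) (hr : r ∈ g.V) (h : Pt g j q r) : Pt g j r q := by
  obtain ⟨n, hn, hT⟩ := h
  exact ⟨-n, Sh_neg hn, hT.swap hJ hX hV hq hr⟩

open Classical in
/-- the contribution of the rare partners -/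
noncomputable def A1 (g : Cfg) (Rr : ℕ → ℕ → Prop) (j q r : ℕ) : ℝ :=
  if Pt g j q r ∧ Rr j r then f g q * Wt g j r else 0

open Classical in
/-- the contribution of the partners of the side `q` -/
noncomputable def A2 (g : Cfg) (S : Finset ℕ) (Rr : ℕ → ℕ → Prop) (c κ : ℝ) (mu : ℕ → ℕ → ℝ)
    (Cp : ℕ → Finset ℕ) (Pay : ℕ → ℕ → Prop) (j q r : ℕ) : ℝ :=
  if Pt g j q r ∧ ¬ Rr j q then
    f g q * (Real.exp (-Wn g mu j q) * Gm g S Rr c κ mu Cp Pay j q) *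
      (Wt g j r * Real.exp (Wn g mu j r)) else 0

theorem A1_nonneg (Rr : ℕ → ℕ → Prop) (j q r : ℕ) : 0 ≤ A1 g Rr j q r := by
  unfold A1
  split_ifs
  · exact mul_nonneg (f_nonneg g q) (Wt_nonneg _ _)
  · exact le_rfl

theorem A2_nonneg {S : Finset ℕ} {δ : ℕ → ℕ → ℝ} {c κ A : ℝ} {mu : ℕ → ℕ → ℝ}
    {Cp : ℕ → Finset ℕ} {Pay : ℕ → ℕ → Prop} (h : DSys g S δ c κ A mu Cp Pay) (Rr : ℕ → ℕ → Prop) (j q r : ℕ) :
    0 ≤ A2 g S Rr c κ mu Cp Pay j q r := by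
  unfold A2
  split_ifs
  · exact mul_nonneg (mul_nonneg (f_nonneg g q)
      (mul_nonneg (Real.exp_pos _).le (Gm_nonneg h Rr j q)))
      (mul_nonneg (Wt_nonneg _ _) (Real.exp_pos _).le)
  · exact le_rfl

open Classical in
/-- **The bound of one pair at one level.** -/
theorem TS_pair (hN : NumOK g.K g.Js) (hX : g.Js ≤ g.X) (hV : g.V ⊆ Icc 1 (N g))
    {S : Finset ℕ} (hS : S ⊆ V1 g) {δ : ℕ → ℕ → ℝ} (hδ : Om δ) {c κ A B : ℝ}
    {mu : ℕ → ℕ → ℝ} {Cp : ℕ → Finset ℕ} {Pay : ℕ → ℕ → Prop} {Rr : ℕ → ℕ → Prop} (hD : DSys g S δ c κ A mu Cp Pay)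
    (hB : 0 ≤ B) (hP : TSPair g S δ Rr c κ B mu Cp Pay) {j q r : ℕ} (hj : 1 ≤ j) (hj' : j ≤ nst g)
    (hq : q ∈ S) (hr : r ∈ S) :
    f g q * f g r / Dl g q r *
      ∑ n ∈ (Sh g q r).filter (fun n => TSj g j q r n), Kd g δ q r n ≤
      CK * (A1 g Rr j q r + A1 g Rr j r q +
        B * (A2 g S Rr c κ mu Cp Pay j q r + A2 g S Rr c κ mu Cp Pay j r q)) := by
  have hρ := hN.e1
  have hJ := hN.js
  have hqV : q ∈ g.V := (mem_filter.1 (mem_filter.1 (hS hq)).1).1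
  have hrV : r ∈ g.V := (mem_filter.1 (mem_filter.1 (hS hr)).1).1
  have hz : zs g ≤ z g j := zs_le_z hJ hX j
  have hCK := CK_pos
  have a1 := A1_nonneg (g := g) Rr j q r
  have a2 := A1_nonneg (g := g) Rr j r q
  have a3 := A2_nonneg hD Rr j q r
  have a4 := A2_nonneg hD Rr j r q
  by_cases hex : Pt g j q r
  swap
  · have h4 : ((Sh g q r).filter (fun n => TSj g j q r n)) = ∅ := by
      refine filter_eq_empty_iff.2 fun n hn hT => hex ⟨n, hn, hT⟩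
    rw [h4, sum_empty, mul_zero]
    positivity
  have hex' : Pt g j r q := hex.swap hJ hX hV hqV hrV
  obtain ⟨n, hn, hT⟩ := id hex
  have hD4 : Dl g q r ≤ 1 / 4 :=
    (lv_lt hN hX hT.1).le.trans (one_div_le_one_div_of_le (by norm_num) hJ.1)
  have hD1 : Dl g q r ≤ 1 := hD4.trans (by norm_num)
  have hsing : ((Sh g q r).filter (fun n => TSj g j q r n)) = {n} := by
    refine eq_singleton_iff_unique_mem.2 ⟨mem_filter.2 ⟨hn, hT⟩, fun m hm => ?_⟩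
    exact card_le_one.1 (Sh_card hD4) m (mem_filter.1 hm).1 n hn
  rw [hsing, sum_singleton]
  obtain ⟨-, -, -, hu, hv⟩ := clean_cofac hV hz hqV hrV hT.2.1
  have hP0 : 0 ≤ TP g δ (z g j) q r n := TP_nonneg hδ _ _ _ _
  have hP1 : TP g δ (z g j) q r n ≤ 1 := TP_le_one hδ _ _ _ _
  have hfq := f_nonneg g q
  have hfr := f_nonneg g r
  have hWq := Wt_nonneg (g := g) j q
  have hWr := Wt_nonneg (g := g) j r
  obtain ⟨g1, g2⟩ := term_TS_gain hρ hJ hX hV hδ (hS hq) (hS hr) hn hT hD1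
  have hsmall : ∀ {a : ℕ} {x : ℝ}, 0 < a → 0 ≤ x →
      x * (a : ℝ) ^ (-(9 / 10) : ℝ) * TP g δ (z g j) q r n ≤ x := by
    intro a x ha hx
    have h1 : (a : ℝ) ^ (-(9 / 10) : ℝ) ≤ 1 :=
      Real.rpow_le_one_of_one_le_of_nonpos (by exact_mod_cast ha) (by norm_num)
    have h0 : 0 ≤ (a : ℝ) ^ (-(9 / 10) : ℝ) := Real.rpow_nonneg (Nat.cast_nonneg _) _
    calc x * (a : ℝ) ^ (-(9 / 10) : ℝ) * TP g δ (z g j) q r n
        ≤ x * 1 * 1 := by gcongr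
      _ = x := by ring
  by_cases hRr : Rr j r
  · have e1 : A1 g Rr j q r = f g q * Wt g j r := by unfold A1; rw [if_pos ⟨hex, hRr⟩]
    refine g1.trans (mul_le_mul_of_nonneg_left ?_ hCK.le)
    refine (hsmall hu (mul_nonneg hfq hWr)).trans ?_
    rw [← e1]
    have : 0 ≤ B * (A2 g S Rr c κ mu Cp Pay j q r + A2 g S Rr c κ mu Cp Pay j r q) := by positivity
    linarith
  by_cases hRq : Rr j q
  · have e1 : A1 g Rr j r q = f g r * Wt g j q := by unfold A1; rw [if_pos ⟨hex', hRq⟩]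
    refine g2.trans (mul_le_mul_of_nonneg_left ?_ hCK.le)
    refine (hsmall hv (mul_nonneg hfr hWq)).trans ?_
    rw [← e1]
    have : 0 ≤ B * (A2 g S Rr c κ mu Cp Pay j q r + A2 g S Rr c κ mu Cp Pay j r q) := by positivity
    linarith
  -- both are not rare
  have e1 : A2 g S Rr c κ mu Cp Pay j q r = f g q * (Real.exp (-Wn g mu j q) *
      Gm g S Rr c κ mu Cp Pay j q) * (Wt g j r * Real.exp (Wn g mu j r)) := by
    unfold A2
    rw [if_pos ⟨hex, hRq⟩]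
  have e2 : A2 g S Rr c κ mu Cp Pay j r q = f g r * (Real.exp (-Wn g mu j r) *
      Gm g S Rr c κ mu Cp Pay j r) * (Wt g j q * Real.exp (Wn g mu j q)) := by
    unfold A2
    rw [if_pos ⟨hex', hRr⟩]
  set t : ℝ := Real.exp (Wn g mu j r - Wn g mu j q) with ht
  have ht0 : 0 < t := Real.exp_pos _
  have hm := term_TS_mean hρ hJ hX hV hδ (hS hq) (hS hr) hn hT hD1 ht0
  have p1 := hP q hq r hr j hj hj' n hn hT
  have hTs := hT.swap hJ hX hV hqV hrV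
  have p2 := hP r hr q hq j hj hj' (-n) (Sh_neg hn) hTs
  rw [TP_swapS, rcof_swap hV hz hqV hrV hT.2.1 r q, rcof_swap hV hz hqV hrV hT.2.1 q r,
    mul_comm ((rcof (z g j) (N g) (kc g q) r q : ℕ) : ℝ)] at p2
  set Y := (((rcof (z g j) (N g) (kc g q) q r : ℕ) : ℝ) *
        ((rcof (z g j) (N g) (kc g q) r q : ℕ) : ℝ)) ^ (-(9 / 20) : ℝ) *
          TP g δ (z g j) q r n with hY
  refine hm.trans (mul_le_mul_of_nonneg_left ?_ hCK.le)
  have et : t = Real.exp (-Wn g mu j q) * Real.exp (Wn g mu j r) := by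
    rw [ht, ← Real.exp_add]
    congr 1
    ring
  have eti : t⁻¹ = Real.exp (-Wn g mu j r) * Real.exp (Wn g mu j q) := by
    rw [ht, ← Real.exp_neg, ← Real.exp_add]
    congr 1
    ring
  have h1 : f g q * Wt g j r * t * Y ≤ B * A2 g S Rr c κ mu Cp Pay j q r := by
    rw [e1]
    calc f g q * Wt g j r * t * Y ≤ f g q * Wt g j r * t * (B * Gm g S Rr c κ mu Cp Pay j q) :=
          mul_le_mul_of_nonneg_left p1 (by positivity)
      _ = _ := by rw [et]; ring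
  have h2 : f g r * Wt g j q * t⁻¹ * Y ≤ B * A2 g S Rr c κ mu Cp Pay j r q := by
    rw [e2]
    calc f g r * Wt g j q * t⁻¹ * Y ≤ f g r * Wt g j q * t⁻¹ * (B * Gm g S Rr c κ mu Cp Pay j r) :=
          mul_le_mul_of_nonneg_left p2 (by positivity)
      _ = _ := by rw [eti]; ring
  calc (f g q * Wt g j r * t + f g r * Wt g j q * t⁻¹) * Y
      = f g q * Wt g j r * t * Y + f g r * Wt g j q * t⁻¹ * Y := by ring
    _ ≤ B * A2 g S Rr c κ mu Cp Pay j q r + B * A2 g S Rr c κ mu Cp Pay j r q := add_le_add h1 h2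
    _ ≤ _ := by linarith

/-- **THE CLASS TS: assembly.** -/
theorem EnS_TS_of (hN : NumOK g.K g.Js) (hX : g.Js ≤ g.X) (hV : g.V ⊆ Icc 1 (N g))
    {S : Finset ℕ} (hS : S ⊆ V1 g) {δ : ℕ → ℕ → ℝ} (hδ : Om δ) {c κ A B1 B2 B4 E : ℝ}
    {mu : ℕ → ℕ → ℝ} {Cp : ℕ → Finset ℕ} {Pay : ℕ → ℕ → Prop} {Rr : ℕ → ℕ → Prop} {ε : ℕ → ℝ}
    (hD : DSys g S δ c κ A mu Cp Pay) (hB1 : 0 ≤ B1) (hB4 : 0 ≤ B4)
    (h1 : TSPair g S δ Rr c κ B1 mu Cp Pay) (h2 : TSSum g S Rr c κ B2 mu Cp Pay)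
    (h4 : TSLaw g S mu B4) (h5 : TSRare g S Rr ε) (h6 : ∑ j ∈ Icc 1 (nst g), ε j ≤ E) :
    EnS g S δ (TS g) ≤ CK * (2 * E + 2 * (B1 * (B2 * B4))) * ∑ q ∈ S, f g q := by
  classical
  have hJ := hN.js
  have hCK := CK_pos
  have hSV : ∀ q ∈ S, q ∈ g.V := fun q hq => (mem_filter.1 (mem_filter.1 (hS hq)).1).1
  have hsymP : ∀ j, ∀ q ∈ S, ∀ r ∈ S, (Pt g j q r ↔ Pt g j r q) := fun j q hq r hr =>
    ⟨fun h => h.swap hJ hX hV (hSV q hq) (hSV r hr),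
      fun h => h.swap hJ hX hV (hSV r hr) (hSV q hq)⟩
  have h0 : EnS g S δ (TS g) ≤ ∑ j ∈ Icc 1 (nst g), EnS g S δ (TSj g j) :=
    EnS_stages hδ S (nst g) (TSj g)
  -- one level
  have hlev : ∀ j ∈ Icc 1 (nst g), EnS g S δ (TSj g j) ≤
      CK * (2 * ∑ q ∈ S, ∑ r ∈ S, A1 g Rr j q r +
        2 * (B1 * ∑ q ∈ S, ∑ r ∈ S, A2 g S Rr c κ mu Cp Pay j q r)) := by
    intro j hj
    obtain ⟨hj1, hj2⟩ := mem_Icc.1 hj
    unfold EnS
    calc ∑ q ∈ S, ∑ r ∈ S.erase q, f g q * f g r / Dl g q r *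
          ∑ n ∈ (Sh g q r).filter (fun n => TSj g j q r n), Kd g δ q r n
        ≤ ∑ q ∈ S, ∑ r ∈ S, CK * (A1 g Rr j q r + A1 g Rr j r q +
          B1 * (A2 g S Rr c κ mu Cp Pay j q r + A2 g S Rr c κ mu Cp Pay j r q)) := by
          refine sum_le_sum fun q hq => ?_
          refine le_trans (sum_le_sum_of_subset_of_nonneg (erase_subset q S) fun r _ _ => ?_)
            (sum_le_sum fun r hr => TS_pair hN hX hV hS hδ hD hB1 h1 hj1 hj2 hq hr)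
          exact mul_nonneg (ff_nonneg g q r) (sum_nonneg fun n _ => Kd_nonneg g hδ q r n)
      _ = _ := by
          have s1 : ∑ q ∈ S, ∑ r ∈ S, A1 g Rr j r q = ∑ q ∈ S, ∑ r ∈ S, A1 g Rr j q r := sum_comm
          have s2 : ∑ q ∈ S, ∑ r ∈ S, A2 g S Rr c κ mu Cp Pay j r q =
              ∑ q ∈ S, ∑ r ∈ S, A2 g S Rr c κ mu Cp Pay j q r := sum_comm
          simp only [← mul_sum, sum_add_distrib]
          rw [s1, s2]
          ring
  -- the rare pairs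
  have hA1 : ∀ j ∈ Icc 1 (nst g), ∑ q ∈ S, ∑ r ∈ S, A1 g Rr j q r ≤ ε j * ∑ q ∈ S, f g q := by
    intro j hj
    obtain ⟨hj1, hj2⟩ := mem_Icc.1 hj
    rw [mul_sum]
    refine sum_le_sum fun q hq => ?_
    have e : ∑ r ∈ S, A1 g Rr j q r = f g q *
        ∑ r ∈ S.filter (fun r => (∃ n ∈ Sh g q r, TSj g j q r n) ∧ Rr j r), Wt g j r := by
      rw [sum_filter, mul_sum]
      refine sum_congr rfl fun r _ => ?_
      unfold A1 Pt
      split_ifs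
      · rfl
      · rw [mul_zero]
    rw [e, mul_comm (ε j)]
    exact mul_le_mul_of_nonneg_left (h5 q hq j hj1 hj2) (f_nonneg g q)
  -- the other pairs
  have hA2 : ∀ j ∈ Icc 1 (nst g), ∑ q ∈ S, ∑ r ∈ S, A2 g S Rr c κ mu Cp Pay j q r ≤
      ∑ q ∈ S, f g q * (if El g S j q ∧ ¬ Rr j q then
        Real.exp (-Wn g mu j q) * Gm g S Rr c κ mu Cp Pay j q else 0) * B4 := by
    intro j hj
    obtain ⟨hj1, hj2⟩ := mem_Icc.1 hj
    refine sum_le_sum fun q hq => ?_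
    by_cases hc : El g S j q ∧ ¬ Rr j q
    · rw [if_pos hc]
      have e : ∑ r ∈ S, A2 g S Rr c κ mu Cp Pay j q r = f g q *
          (Real.exp (-Wn g mu j q) * Gm g S Rr c κ mu Cp Pay j q) *
          ∑ r ∈ S.filter (fun r => ∃ n ∈ Sh g q r, TSj g j q r n),
            Wt g j r * Real.exp (Wn g mu j r) := by
        rw [sum_filter, mul_sum]
        refine sum_congr rfl fun r _ => ?_
        unfold A2 Pt
        by_cases hh : ∃ n ∈ Sh g q r, TSj g j q r n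
        · rw [if_pos ⟨hh, hc.2⟩, if_pos hh]
        · rw [if_neg fun h => hh h.1, if_neg hh, mul_zero]
      rw [e]
      refine mul_le_mul_of_nonneg_left (h4 q hq j hj1 hj2) ?_
      exact mul_nonneg (f_nonneg g q) (mul_nonneg (Real.exp_pos _).le (Gm_nonneg hD Rr j q))
    · rw [if_neg hc, mul_zero, zero_mul]
      refine le_of_eq (sum_eq_zero fun r hr => ?_)
      unfold A2
      rw [if_neg]
      rintro ⟨⟨n, hn, hT⟩, hR⟩
      exact hc ⟨⟨r, hr, n, hn, hT⟩, hR⟩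
  have hF0 : 0 ≤ ∑ q ∈ S, f g q := sum_nonneg fun q _ => f_nonneg g q
  have hsum2 : ∑ j ∈ Icc 1 (nst g), ∑ q ∈ S, ∑ r ∈ S, A2 g S Rr c κ mu Cp Pay j q r ≤
      B2 * B4 * ∑ q ∈ S, f g q := by
    refine (sum_le_sum hA2).trans ?_
    rw [sum_comm, mul_sum]
    refine sum_le_sum fun q hq => ?_
    rw [← sum_mul, ← mul_sum, ← sum_filter]
    have h7 := h2 q hq
    calc f g q * (∑ j ∈ (Icc 1 (nst g)).filter (fun j => El g S j q ∧ ¬ Rr j q),
          Real.exp (-Wn g mu j q) * Gm g S Rr c κ mu Cp Pay j q) * B4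
        ≤ f g q * B2 * B4 := by
          refine mul_le_mul_of_nonneg_right ?_ hB4
          exact mul_le_mul_of_nonneg_left h7 (f_nonneg g q)
      _ = _ := by ring
  have hsum1 : ∑ j ∈ Icc 1 (nst g), ∑ q ∈ S, ∑ r ∈ S, A1 g Rr j q r ≤ E * ∑ q ∈ S, f g q := by
    refine (sum_le_sum hA1).trans ?_
    rw [← sum_mul]
    exact mul_le_mul_of_nonneg_right h6 hF0
  refine h0.trans ((sum_le_sum hlev).trans ?_)
  rw [← mul_sum, sum_add_distrib, ← mul_sum, ← mul_sum, ← mul_sum, mul_assoc]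
  refine mul_le_mul_of_nonneg_left ?_ hCK.le
  calc 2 * ∑ j ∈ Icc 1 (nst g), ∑ q ∈ S, ∑ r ∈ S, A1 g Rr j q r +
        2 * (B1 * ∑ j ∈ Icc 1 (nst g), ∑ q ∈ S, ∑ r ∈ S, A2 g S Rr c κ mu Cp Pay j q r)
      ≤ 2 * (E * ∑ q ∈ S, f g q) + 2 * (B1 * (B2 * B4 * ∑ q ∈ S, f g q)) := by gcongr
    _ = _ := by ring

end Vale.P028.SK
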