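-- RD-BASE 9754fb898c44cd1be96ccd9b3603170752d8e76d
import Vale.Agent.P028.MathlibUsed
import Vale.Agent.P028.RD.R103.TSDefs
import Vale.Agent.P028.RD.H530.Delta
attribute [-instance] ProperSMul.toContinuousSMul IsTopologicalTorsor.toContinuousSMul IdemSemiring.toCanonicallyOrderedAdd IdemSemiring.toMulLeftMono IdemSemiring.toMulRightMono AddQuantale.instAddLeftMono AddQuantale.instAddRightMono Quantale.instMulLeftMono Quantale.instMulRightMono FiniteDimensional.rclike_to_real IsScalarTower.complexToReal FiniteDimensional.complexToReal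

/-!
# Class TS: the concrete dilution satisfies `DSys`
-/

namespace Vale.P028.SK

open Finset CF RN

variable {g : Cfg}

/-- the natural masses outside the stage `j` depend only on the cell -/
theorem hn_cell (hJ : JsOK g.K g.Js) (hX : g.Js ≤ g.X) {j q r : ℕ}
    (hc : r ∈ NT.cell g.V (f g) (thr g) (N g) (z g j) q) {k : ℕ} (hk : k < N g - z g j) :
    hn g r k = hn g q k := by
  have hz : zs g ≤ z g j := zs_le_z hJ hX j
  have hlt : z g j < N g - k := by omega
  have h1 : (Qc g r).factorization (N g - k) = (Qc g q).factorization (N g - k) := by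
    rw [Qc_fac, Qc_fac]
    split_ifs
    · exact kc_congr hc hlt
    · rfl
  have h2 : Spl g r (N g - k) ↔ Spl g q (N g - k) := by
    unfold Spl
    rw [NT.cell_eq (NT.cell_mono hlt.le q hc)]
  unfold hn
  rw [h1]
  by_cases h3 : Spl g q (N g - k)
  · rw [if_neg fun h => h.2 (h2.2 h3), if_neg fun h => h.2 h3]
  · by_cases h4 : (Qc g q).factorization (N g - k) ≠ 0
    · rw [if_pos ⟨h4, fun h => h3 (h2.1 h)⟩, if_pos ⟨h4, h3⟩]
    · rw [if_neg fun h => h4 h.1, if_neg fun h => h4 h.1]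

/-- **the concrete dilution** satisfies the hypotheses of the class TS -/
theorem dsys_dd (hJ : JsOK g.K g.Js) (hX : g.Js ≤ g.X) (hV : g.V ⊆ Icc 1 (N g)) {c1 c : ℝ}
    (h1 : 0 < c1) (h1e : c1 * Real.exp 24 ≤ 1) (hc : 0 < c) (hc1 : c ≤ 1) (hz : 4 ≤ c1 * zs g)
    {S : Finset ℕ} (hS : S ⊆ g.V) :
    DSys g S (dd g c1 c) c1 (c * c1 / 8) ((1 - c * c1 / 8)⁻¹) (muw g c1) (NwP g) (Pyw g c1) := by
  have h1' : c1 ≤ 1 := by
    have h3 : (1 : ℝ) ≤ Real.exp 24 := Real.one_le_exp (by norm_num)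
    nlinarith
  have hcc : c * c1 ≤ 1 := mul_le_one₀ hc1 h1.le h1'
  have hcc0 : 0 < c * c1 := mul_pos hc h1
  have hκ : 0 < 1 - c * c1 / 8 := by linarith
  refine ⟨h1, h1e, by positivity, by linarith, (inv_pos.2 hκ).le, fun q k => muw_nonneg h1.le q k,
    fun q k => muw_le h1 (by norm_num) hz q k, fun q _ k => ?_, fun q hq k hk => ?_,
    fun q _ r _ j hcell k hk => ?_, fun q _ a => mem_NwP, fun q hq => ?_, fun q hq s => ?_⟩
  · rw [c1_muw h1.ne']
    exact hn_le_hw q k
  · rw [c1_muw h1.ne', hn_of_uw (hS hq) hk]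
    unfold hw
    split_ifs
    · exact le_rfl
    · positivity
  · unfold muw
    rw [hn_cell hJ hX hcell hk]
  · exact Pos_w hJ hX hV h1 (by linarith) (hS hq)
  · have h2 := WG_le_Vt h1 h1' hc.le hc1 (by linarith : 1 ≤ c1 * zs g) (hS hq) s
    rw [mul_comm _ (RK.Vt _ _ _ _), ← div_eq_mul_inv, le_div_iff₀ hκ, mul_comm]
    exact h2

end Vale.P028.SK
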