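-- RD-BASE 48367b8a74d2c0c1322d33fdedaaae80863fedab
import Vale.Agent.P028.MathlibUsed
import Vale.Agent.P028.R103.HolderRow
import Vale.Agent.P028.RD.R764.GrpG
attribute [-instance] ProperSMul.toContinuousSMul IsTopologicalTorsor.toContinuousSMul IdemSemiring.toCanonicallyOrderedAdd IdemSemiring.toMulLeftMono IdemSemiring.toMulRightMono AddQuantale.instAddLeftMono AddQuantale.instAddRightMono Quantale.instMulLeftMono Quantale.instMulRightMono FiniteDimensional.rclike_to_real IsScalarTower.complexToReal FiniteDimensional.complexToReal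

/-!
# Leaks, subgroups of groups at a cut `x`: algebra
-/

namespace Vale.P028.SK.X3

open Finset CF

/-- the factor `kapG` is paid by a small power of the rests -/
theorem kapG_le {ε κ K : ℝ} {a b : ℕ} (hε : 0 ≤ ε) (hε1 : ε ≤ 1 / 2400) (hκ : 1 ≤ κ)
    (h1 : κ ≤ K) (h2 : K ≤ κ ^ 2) (ha : 0 < a) (hb : 0 < b) :
    kapG ε K a b ≤ κ ^ (-(1 / 1200) + 2 * ε : ℝ) * ((a : ℝ) * b) ^ (1 / 60 : ℝ) := by
  have hK : 1 ≤ K := hκ.trans h1
  have hκ0 : 0 < κ := by linarith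
  have ha1 : (1 : ℝ) ≤ a := by exact_mod_cast ha
  have hb1 : (1 : ℝ) ≤ b := by exact_mod_cast hb
  have hab : 1 ≤ (a : ℝ) * b := one_le_mul_of_one_le_of_one_le ha1 hb1
  unfold kapG
  split_ifs with h
  · calc K ^ (-(1 / 400) : ℝ) ≤ κ ^ (-(1 / 400) : ℝ) :=
          Real.rpow_le_rpow_of_nonpos hκ0 h1 (by norm_num)
      _ ≤ κ ^ (-(1 / 1200) + 2 * ε : ℝ) :=
          Real.rpow_le_rpow_of_exponent_le hκ (by linarith)
      _ = κ ^ (-(1 / 1200) + 2 * ε : ℝ) * 1 := (mul_one _).symm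
      _ ≤ _ := mul_le_mul_of_nonneg_left (Real.one_le_rpow hab (by norm_num)) (by positivity)
  · have h3 : K ^ (1 / 20 : ℝ) ≤ (a : ℝ) * b := by
      rw [not_and_or, not_lt, not_lt] at h
      rcases h with h | h
      · exact h.trans (le_mul_of_one_le_right (by linarith) hb1)
      · exact h.trans (le_mul_of_one_le_left (by linarith) ha1)
    have h4 : κ ^ (1 / 1200 : ℝ) ≤ ((a : ℝ) * b) ^ (1 / 60 : ℝ) := by
      calc κ ^ (1 / 1200 : ℝ) = (κ ^ (1 / 20 : ℝ)) ^ (1 / 60 : ℝ) := by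
            rw [← Real.rpow_mul hκ0.le]; norm_num
        _ ≤ (K ^ (1 / 20 : ℝ)) ^ (1 / 60 : ℝ) :=
            Real.rpow_le_rpow (by positivity) (Real.rpow_le_rpow hκ0.le h1 (by norm_num))
              (by norm_num)
        _ ≤ _ := Real.rpow_le_rpow (by positivity) h3 (by norm_num)
    calc K ^ ε ≤ (κ ^ 2) ^ ε := Real.rpow_le_rpow (by linarith) h2 hε
      _ = κ ^ (2 * ε) := by
          rw [← Real.rpow_natCast κ 2, ← Real.rpow_mul hκ0.le]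
          norm_num
      _ = κ ^ (-(1 / 1200) + 2 * ε : ℝ) * κ ^ (1 / 1200 : ℝ) := by
          rw [← Real.rpow_add hκ0]
          congr 1
          ring
      _ ≤ _ := mul_le_mul_of_nonneg_left h4 (by positivity)

/-- one side of the pair: omitted part `a₁` (tilted), rest `a₂` -/
theorem side_le {F w ao a1 a2 θ τ τ' : ℝ} (hF : 0 ≤ F) (hw : 0 ≤ w) (hao : 0 < ao) (ha1 : 1 ≤ a1)
    (ha2 : 1 ≤ a2) (hθ : 9 / 20 ≤ θ) (hτ : τ' ≤ θ * τ) (hτ' : τ' ≤ 1 / 120) :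
    (F * w / (ao * (a1 * a2))) ^ θ * (a1 * a2) ^ τ' * a2 ^ (1 / 60 + 1 / 120 : ℝ) ≤
      (w / ao) ^ θ * (F * a1 ^ (-(1 - τ))) ^ θ * a2 ^ (-(5 / 12) : ℝ) := by
  have h1 : 0 < a1 := by linarith
  have h2 : 0 < a2 := by linarith
  have e : F * w / (ao * (a1 * a2)) = (w / ao) * F * (a1⁻¹ * a2⁻¹) := by
    field_simp
  rw [e, Real.mul_rpow (by positivity) (by positivity), Real.mul_rpow (by positivity) hF,
    Real.mul_rpow (by positivity) (by positivity), Real.mul_rpow hF (by positivity),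
    Real.mul_rpow h1.le h2.le, Real.inv_rpow h1.le, Real.inv_rpow h2.le, ← Real.rpow_neg h1.le,
    ← Real.rpow_neg h2.le, ← Real.rpow_mul h1.le]
  have k1 : a1 ^ (-θ) * a1 ^ τ' ≤ a1 ^ (-(1 - τ) * θ) := by
    rw [← Real.rpow_add h1]
    exact Real.rpow_le_rpow_of_exponent_le ha1 (by linarith)
  have k2 : a2 ^ (-θ) * a2 ^ τ' * a2 ^ (1 / 60 + 1 / 120 : ℝ) ≤ a2 ^ (-(5 / 12) : ℝ) := by
    rw [← Real.rpow_add h2, ← Real.rpow_add h2]
    exact Real.rpow_le_rpow_of_exponent_le ha2 (by linarith)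
  calc (w / ao) ^ θ * F ^ θ * (a1 ^ (-θ) * a2 ^ (-θ)) * (a1 ^ τ' * a2 ^ τ') *
        a2 ^ (1 / 60 + 1 / 120 : ℝ)
      = (w / ao) ^ θ * F ^ θ * (a1 ^ (-θ) * a1 ^ τ') *
        (a2 ^ (-θ) * a2 ^ τ' * a2 ^ (1 / 60 + 1 / 120 : ℝ)) := by ring
    _ ≤ (w / ao) ^ θ * F ^ θ * a1 ^ (-(1 - τ) * θ) * a2 ^ (-(5 / 12) : ℝ) := by
        refine mul_le_mul (mul_le_mul_of_nonneg_left k1 (by positivity)) k2 (by positivity)
          (by positivity)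
    _ = _ := by ring

/-- the weight of the row of `q`: omitted part tilted -/
noncomputable def rowWa (D a1 r2 τ : ℝ) : ℝ := D * a1 ^ (-(1 - τ)) * r2 ^ (-(5 / 12) : ℝ)

/-- **one exponent of the pair of subgroups** -/
theorem pair_theta {Fa Fb w w' ao a1 a2 bo b1 b2 θ τ τ' D : ℝ} (hFa : 0 ≤ Fa) (hFb : 0 ≤ Fb)
    (hw : 0 ≤ w) (hw' : 0 ≤ w') (hao : 0 < ao) (ha1 : 1 ≤ a1) (ha2 : 1 ≤ a2) (hbo : 0 < bo)
    (hb1 : 1 ≤ b1) (hb2 : 1 ≤ b2) (hθ : 9 / 20 ≤ θ) (hθ' : θ ≤ 11 / 20) (hτ' : τ' ≤ 1 / 120)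
    (hτ0 : 0 ≤ τ) (hτ : τ' ≤ 9 / 20 * τ) (hD : 0 ≤ D) :
    D * ((Fa * w / (ao * (a1 * a2))) ^ θ * (Fb * w' / (bo * (b1 * b2))) ^ (1 - θ)) *
        ((a1 * a2) * (b1 * b2)) ^ τ' * (a2 * b2) ^ (1 / 60 + 1 / 120 : ℝ) ≤
      ((w / ao) ^ θ * (w' / bo) ^ (1 - θ)) *
        ((Fa * rowWa D a1 (a2 * b2) τ) ^ θ * (Fb * rowWa D b1 (a2 * b2) τ) ^ (1 - θ)) := by
  have ha10 : 0 < a1 := by linarith
  have ha20 : 0 < a2 := by linarith
  have hb10 : 0 < b1 := by linarith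
  have hb20 : 0 < b2 := by linarith
  have hr : (0 : ℝ) < a2 * b2 := by positivity
  have s1 := side_le hFa hw hao ha1 ha2 hθ (τ := τ) (by nlinarith) hτ'
  have s2 := side_le hFb hw' hbo hb1 hb2 (θ := 1 - θ) (by linarith) (τ := τ)
    (by nlinarith) hτ'
  have e1 : ((Fa * rowWa D a1 (a2 * b2) τ) ^ θ * (Fb * rowWa D b1 (a2 * b2) τ) ^ (1 - θ)) =
      D * ((Fa * a1 ^ (-(1 - τ))) ^ θ * (Fb * b1 ^ (-(1 - τ))) ^ (1 - θ)) *
        (a2 ^ (-(5 / 12) : ℝ) * b2 ^ (-(5 / 12) : ℝ)) := by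
    unfold rowWa
    have x1 : Fa * (D * a1 ^ (-(1 - τ)) * (a2 * b2) ^ (-(5 / 12) : ℝ)) =
        (Fa * a1 ^ (-(1 - τ))) * (D * (a2 * b2) ^ (-(5 / 12) : ℝ)) := by ring
    have x2 : Fb * (D * b1 ^ (-(1 - τ)) * (a2 * b2) ^ (-(5 / 12) : ℝ)) =
        (Fb * b1 ^ (-(1 - τ))) * (D * (a2 * b2) ^ (-(5 / 12) : ℝ)) := by ring
    have hY : 0 ≤ D * (a2 * b2) ^ (-(5 / 12) : ℝ) := by positivity
    have x3 : (D * (a2 * b2) ^ (-(5 / 12) : ℝ)) ^ θ * (D * (a2 * b2) ^ (-(5 / 12) : ℝ)) ^ (1 - θ) =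
        D * (a2 * b2) ^ (-(5 / 12) : ℝ) := by
      rcases hY.eq_or_lt with h | h
      · rw [← h, Real.zero_rpow (by linarith), zero_mul]
      · rw [← Real.rpow_add h]
        norm_num
    rw [x1, x2, Real.mul_rpow (by positivity) hY, Real.mul_rpow (by positivity) hY]
    calc _ = ((Fa * a1 ^ (-(1 - τ))) ^ θ * (Fb * b1 ^ (-(1 - τ))) ^ (1 - θ)) *
          ((D * (a2 * b2) ^ (-(5 / 12) : ℝ)) ^ θ *
            (D * (a2 * b2) ^ (-(5 / 12) : ℝ)) ^ (1 - θ)) := by ring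
      _ = _ := by
          rw [x3, Real.mul_rpow ha20.le hb20.le]
          ring
  rw [e1, Real.mul_rpow (by positivity) (by positivity), Real.mul_rpow ha20.le hb20.le]
  calc _ = D * (((Fa * w / (ao * (a1 * a2))) ^ θ * (a1 * a2) ^ τ' * a2 ^ (1 / 60 + 1 / 120 : ℝ)) *
        ((Fb * w' / (bo * (b1 * b2))) ^ (1 - θ) * (b1 * b2) ^ τ' *
          b2 ^ (1 / 60 + 1 / 120 : ℝ))) := by ring
    _ ≤ D * (((w / ao) ^ θ * (Fa * a1 ^ (-(1 - τ))) ^ θ * a2 ^ (-(5 / 12) : ℝ)) *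
        ((w' / bo) ^ (1 - θ) * (Fb * b1 ^ (-(1 - τ))) ^ (1 - θ) * b2 ^ (-(5 / 12) : ℝ))) :=
        mul_le_mul_of_nonneg_left (mul_le_mul s1 s2 (by positivity) (by positivity)) hD
    _ = _ := by ring

end Vale.P028.SK.X3
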